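import Vale.Agent.P372.Main
import Vale.Agent.P372.Horodecki

/-!
# P372: key from the qubit-ququart bound entangled states
-/

namespace Vale.Agent.Results.P372.Horodecki24

open Matrix
open scoped Kronecker ComplexOrder

/-- An exact zero `ρ (S ⊗ M + N ⊗ T) ρ = 0` with `tr ρ (S ⊗ T) > 0` gives `K_D > 0`; so every
PPT entangled state of the family of P. Horodecki on `C² ⊗ C⁴` has `K_D > 0`, together with all
states near it. -/
theorem result :
    (∀ (A B : Type) [Fintype A] [Fintype B] (ρ : Matrix (A × B) (A × B) ℂ),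
        Vale.P372.IsState ρ → ∀ (S N : Matrix A A ℂ) (T M : Matrix B B ℂ),
        S.IsHermitian → T.IsHermitian → N.PosDef → M.PosDef →
        ρ * (S ⊗ₖ M + N ⊗ₖ T) * ρ = 0 → 0 < (ρ * (S ⊗ₖ T)).trace.re →
        Vale.P372.HasPositiveKey ρ) ∧
    (∀ b : ℝ, 0 < b → b < 1 →
        Vale.P372.IsState (Vale.P372.horodecki24 b) ∧ Vale.P372.IsPPT (Vale.P372.horodecki24 b) ∧
        ¬ Vale.P372.IsSeparable (Vale.P372.horodecki24 b) ∧
        Vale.P372.HasPositiveKey (Vale.P372.horodecki24 b) ∧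
        ∃ U : Set (Matrix (Fin 2 × Fin 4) (Fin 2 × Fin 4) ℂ), IsOpen U ∧
          Vale.P372.horodecki24 b ∈ U ∧
          ∀ ρ ∈ U, Vale.P372.IsState ρ → Vale.P372.HasPositiveKey ρ) := by
  refine ⟨fun A B _ _ ρ hρ S N T M hS hT hN hM h0 hpos => ?_, fun b h0 h1 => ?_⟩
  · classical
    exact Vale.P372.hasPositiveKey_of_keyCriterion hρ
      (Vale.P372.keyCriterion_of_exact hρ.1 hS hT hN hM h0 hpos)
  · obtain ⟨hs, hp, hk⟩ := Vale.P372.horodecki24_spec h0 h1
    exact ⟨hs, hp, fun h => Vale.P372.not_keyCriterion_of_separable h hk,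
      Vale.P372.hasPositiveKey_of_keyCriterion hs hk,
      {ρ | Vale.P372.KeyCriterion ρ}, Vale.P372.isOpen_keyCriterion, hk,
      fun ρ h hρ => Vale.P372.hasPositiveKey_of_keyCriterion hρ h⟩

end Vale.Agent.Results.P372.Horodecki24
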