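import Vale.Agent.P372.Main
import Vale.Agent.P372.Tiles
import Vale.Agent.P372.Fisher
import Vale.Agent.P372.TraceNorm
import Vale.Agent.P372.Metrology

/-!
# P372: a criterion for positive distillable key, and a 3 x 3 bound entangled state with key
-/

namespace Vale.Agent.Results.P372.KeyCriterion

open Matrix
open scoped Kronecker ComplexOrder

/-- A state has `K_D > 0` iff some number of copies meets the key criterion, iff some number of
copies violates, after local filters, the uncertainty bound of separable states, iff some protocol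
on some number of copies leaves one key bit with error at most one tenth. One copy meeting either
condition suffices; separable states never meet the criterion; the tiles state on two qutrits is
PPT, entangled and has `K_D > 0`. -/
theorem result :
    (∀ (A B : Type) [Fintype A] [Fintype B] (ρ : Matrix (A × B) (A × B) ℂ),
        Vale.P372.IsState ρ →
        (Vale.P372.HasPositiveKey ρ ↔ ∃ n, Vale.P372.KeyCriterion (Vale.P372.power ρ n))) ∧
    (∀ (A B : Type) [Fintype A] [Fintype B] (ρ : Matrix (A × B) (A × B) ℂ),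
        Vale.P372.IsState ρ → (Vale.P372.HasPositiveKey ρ ↔
          ∃ n, Vale.P372.ViolatesUncertainty (Vale.P372.power ρ n))) ∧
    (∀ (A B E : Type) [Fintype A] [Fintype B] [Fintype E] [DecidableEq E]
        (ρ : Matrix (A × B) (A × B) ℂ) (R : Matrix (A × B) E ℂ), Vale.P372.IsState ρ → R * Rᴴ = ρ →
        (Vale.P372.HasPositiveKey ρ ↔ ∃ (n ℓ : ℕ) (P : Vale.P372.Proto ℓ (Fin n → A) (Fin n → B)),
          0 < ℓ ∧ P.HasError (Vale.P372.copies R n) (1 / 10))) ∧
    (∀ (A B : Type) [Fintype A] [Fintype B] (ρ : Matrix (A × B) (A × B) ℂ),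
        Vale.P372.IsState ρ → Vale.P372.KeyCriterion ρ → Vale.P372.HasPositiveKey ρ) ∧
    (∀ (A B : Type) [Fintype A] [Fintype B] (ρ : Matrix (A × B) (A × B) ℂ),
        Vale.P372.IsSeparable ρ → ¬ Vale.P372.KeyCriterion ρ) ∧
    (∀ (A B : Type) [Fintype A] [Fintype B] (ρ : Matrix (A × B) (A × B) ℂ),
        Vale.P372.IsState ρ → Vale.P372.ViolatesUncertainty ρ → Vale.P372.HasPositiveKey ρ) ∧
    (Vale.P372.IsState Vale.P372.tiles ∧ Vale.P372.IsPPT Vale.P372.tiles ∧
      ¬ Vale.P372.IsSeparable Vale.P372.tiles ∧ Vale.P372.HasPositiveKey Vale.P372.tiles) := by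
  refine ⟨fun A B _ _ ρ h => Vale.P372.hasPositiveKey_iff h,
    fun A B _ _ ρ h => Vale.P372.hasPositiveKey_iff_uncertainty h,
    fun A B E _ _ _ _ ρ R h hR => Vale.P372.hasPositiveKey_iff_oneBit h hR,
    fun A B _ _ ρ h1 h2 => Vale.P372.hasPositiveKey_of_keyCriterion h1 h2,
    fun A B _ _ ρ h => Vale.P372.not_keyCriterion_of_separable h, ?_,
    Vale.P372.tiles_isState, Vale.P372.tiles_isPPT, Vale.P372.tiles_not_separable,
    Vale.P372.hasPositiveKey_of_keyCriterion Vale.P372.tiles_isState
      Vale.P372.tiles_keyCriterion⟩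
  rintro A B _ _ ρ hρ ⟨k, l, X, Y, S, T, H, hS, hT, hH, hvio⟩
  exact Vale.P372.hasPositiveKey_of_keyCriterion hρ
    (Vale.P372.keyCriterion_of_filtered_uncertainty hρ.1 X Y hS hT hH hvio)

end Vale.Agent.Results.P372.KeyCriterion
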