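import Vale.Agent.P372.Main
import Vale.Agent.P372.RankFourExample
import Vale.Agent.P372.RankAny
import Vale.Agent.P372.RankLow

/-!
# P372: key from low-rank states with completely entangled range
-/

namespace Vale.Agent.Results.P372.LowRank

open Matrix
open scoped Kronecker ComplexOrder

/-- A state with no product vector in its range is entangled and has `K_D > 0` if one marginal has
rank at most three and the state has rank at most one more than the other marginal, or if it is
PPT of rank at most four; the states built on two-qutrit unextendible product bases are such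
states. -/
theorem result :
    (∀ (A B : Type) [Fintype A] [Fintype B] (ρ : Matrix (A × B) (A × B) ℂ),
        Vale.P372.IsState ρ →
        (∀ w x y, ρ *ᵥ w = Vale.P372.tvec x y → ρ *ᵥ w = 0) →
        ((Vale.P372.marginalA ρ).rank ≤ 3 ∧ ρ.rank ≤ (Vale.P372.marginalB ρ).rank + 1 ∨
          (Vale.P372.marginalB ρ).rank ≤ 3 ∧ ρ.rank ≤ (Vale.P372.marginalA ρ).rank + 1 ∨
          Vale.P372.IsPPT ρ ∧ ρ.rank ≤ 4) →
        ¬ Vale.P372.IsSeparable ρ ∧ Vale.P372.HasPositiveKey ρ) ∧
    (∀ a b : Fin 5 → Fin 3 → ℂ, Vale.P372.IsUPB a b →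
        Vale.P372.IsState (Vale.P372.upbState a b) ∧ Vale.P372.IsPPT (Vale.P372.upbState a b) ∧
        (Vale.P372.upbState a b).rank = 4 ∧
        ∀ w x y, Vale.P372.upbState a b *ᵥ w = Vale.P372.tvec x y →
          Vale.P372.upbState a b *ᵥ w = 0) ∧
    Vale.P372.IsUPB Vale.P372.tilesA Vale.P372.tilesB := by
  refine ⟨fun A B _ _ ρ hρ hrange hcase => ?_, fun a b h =>
    ⟨Vale.P372.upbState_isState h, Vale.P372.upbState_isPPT h, Vale.P372.upbState_rank h,
      Vale.P372.upbState_noProd h⟩, Vale.P372.tiles_isUPB⟩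
  classical
  have hne : ρ ≠ 0 := fun h => by simpa [h] using hρ.2
  have h : Vale.P372.KeyCriterion ρ := by
    rcases hcase with h1 | h2 | ⟨hppt, h4⟩
    · exact Vale.P372.keyCriterion_of_low_rank hρ.1 hne (Or.inl h1) hrange
    · exact Vale.P372.keyCriterion_of_low_rank hρ.1 hne (Or.inr h2) hrange
    · exact Vale.P372.keyCriterion_of_rank_le_four hρ.1 hppt hne h4 hrange
  exact ⟨fun hs => Vale.P372.not_keyCriterion_of_separable hs h,
    Vale.P372.hasPositiveKey_of_keyCriterion hρ h⟩

end Vale.Agent.Results.P372.LowRank
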