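import Vale.Agent.P372.Main
import Vale.Agent.P372.TilesUPB
import Vale.Agent.P372.Product

/-!
# P372: a kernel condition for key, and key from every two-qutrit unextendible product basis
-/

namespace Vale.Agent.Results.P372.QutritUPB

open Matrix
open scoped Kronecker ComplexOrder

/-- A kernel condition forces `K_D > 0`; hence an unextendible set of product vectors in the kernel
of a state on `A × ℂ³` does, in particular every two-qutrit state built on an unextendible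
product basis, and every state that local filters send to a multiple of one, has key. -/
theorem result :
    (∀ (A B : Type) [Fintype A] [Fintype B] [DecidableEq A] (ρ : Matrix (A × B) (A × B) ℂ),
        Vale.P372.IsState ρ → ∀ (S : Matrix A A ℂ) (M : Matrix B B ℂ) (η : B → ℂ),
        S.IsHermitian → M.PosSemidef → ρ * (S ⊗ₖ M) * ρ = 0 →
        (∀ w, ((1 : Matrix A A ℂ) ⊗ₖ M) *ᵥ (ρ *ᵥ w) = 0 → ρ *ᵥ w = 0) →
        (ρ * (S ⊗ₖ vecMulVec η (star η))).trace.re ≠ 0 → Vale.P372.HasPositiveKey ρ) ∧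
    (∀ (A B ι : Type) [Fintype A] [Fintype B] (ρ : Matrix (A × B) (A × B) ℂ),
        Vale.P372.IsState ρ → ∀ (a : ι → A → ℂ) (b : ι → B → ℂ),
        (∀ i, ρ *ᵥ Vale.P372.tvec (a i) (b i) = 0) →
        2 ≤ Fintype.card B →
        (∀ x y, x ≠ 0 → y ≠ 0 → ∃ i, (star (a i) ⬝ᵥ x) * (star (b i) ⬝ᵥ y) ≠ 0) →
        (∀ k l, b k ≠ 0 → (∃ y, star (b k) ⬝ᵥ y = 0 ∧ star (b l) ⬝ᵥ y ≠ 0) →
          ∀ w, (∀ i, star (b k) ⬝ᵥ (fun j => (ρ *ᵥ w) (i, j)) = 0 ∧
            star (b l) ⬝ᵥ (fun j => (ρ *ᵥ w) (i, j)) = 0) → ρ *ᵥ w = 0) →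
        Vale.P372.HasPositiveKey ρ) ∧
    (∀ (A ι : Type) [Fintype A] (ρ : Matrix (A × Fin 3) (A × Fin 3) ℂ),
        Vale.P372.IsState ρ → ∀ (a : ι → A → ℂ) (b : ι → Fin 3 → ℂ),
        (∀ i, ρ *ᵥ Vale.P372.tvec (a i) (b i) = 0) →
        (∀ x y, x ≠ 0 → y ≠ 0 → ∃ i, (star (a i) ⬝ᵥ x) * (star (b i) ⬝ᵥ y) ≠ 0) →
        Vale.P372.HasPositiveKey ρ) ∧
    (∀ a b : Fin 5 → Fin 3 → ℂ, Vale.P372.IsUPB a b →
        Vale.P372.IsState (Vale.P372.upbState a b) ∧ Vale.P372.IsPPT (Vale.P372.upbState a b) ∧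
        ¬ Vale.P372.IsSeparable (Vale.P372.upbState a b) ∧
        Vale.P372.HasPositiveKey (Vale.P372.upbState a b)) ∧
    (∀ (A B : Type) [Fintype A] [Fintype B] (ρ : Matrix (A × B) (A × B) ℂ),
        Vale.P372.IsState ρ → ∀ (X : Matrix (Fin 3) A ℂ) (Y : Matrix (Fin 3) B ℂ)
          (a b : Fin 5 → Fin 3 → ℂ) (c : ℝ), Vale.P372.IsUPB a b → 0 < c →
        (X ⊗ₖ Y) * ρ * (X ⊗ₖ Y)ᴴ = (c : ℂ) • Vale.P372.upbState a b →
        Vale.P372.HasPositiveKey ρ) ∧
    Vale.P372.IsUPB Vale.P372.tilesA Vale.P372.tilesB := by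
  refine ⟨?_, ?_, ?_, fun a b h => ⟨Vale.P372.upbState_isState h, Vale.P372.upbState_isPPT h,
    Vale.P372.upbState_not_separable h, Vale.P372.hasPositiveKey_of_keyCriterion
      (Vale.P372.upbState_isState h) (Vale.P372.upbState_keyCriterion h)⟩, ?_,
    Vale.P372.tiles_isUPB⟩
  · intro A B _ _ _ ρ hρ S M η hS hM h0 hinj hη
    classical
    exact Vale.P372.hasPositiveKey_of_keyCriterion hρ
      (Vale.P372.keyCriterion_of_kernel hρ.1 hS hM η h0 hinj hη)
  · intro A B ι _ _ ρ hρ a b hker hB hext hinj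
    classical
    exact Vale.P372.hasPositiveKey_of_keyCriterion hρ
      (Vale.P372.keyCriterion_of_unextendible_inj hρ.1 (fun h => by simpa [h] using hρ.2) a b hker
        hext hinj hB)
  · intro A ι _ ρ hρ a b hker hext
    classical
    exact Vale.P372.hasPositiveKey_of_keyCriterion hρ
      (Vale.P372.keyCriterion_of_unextendible hρ.1 (fun h => by simpa [h] using hρ.2) a b hker
        hext)
  · intro A B _ _ ρ hρ X Y a b c h hc hXY
    refine Vale.P372.hasPositiveKey_of_keyCriterion hρ (Vale.P372.keyCriterion_of_filter X Y ?_)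
    rw [hXY]
    obtain ⟨k, l, X₀, X₁, Y₀, Y₁, V, hV, hlt⟩ := Vale.P372.upbState_keyCriterion h
    refine ⟨k, l, X₀, X₁, Y₀, Y₁, V, hV, ?_⟩
    simp only [Vale.P372.weight, Matrix.mul_smul, Matrix.smul_mul, Matrix.trace_smul, smul_eq_mul,
      Complex.re_ofReal_mul, norm_mul, Complex.norm_real, Real.norm_eq_abs, abs_of_pos hc] at *
    have := mul_lt_mul_of_pos_left hlt (pow_pos hc 4)
    nlinarith

end Vale.Agent.Results.P372.QutritUPB
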